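import Mathlib

/-!
# S0222 pre-build (GAP, Lemma A), helper97: the abstract spectral step

Mathlib only; nothing here is specific to the shuffle.

* `inner_le_of_eigen`, `inner_le_of_eigen_submodule`: for a symmetric operator on a
  finite-dimensional real inner product space (resp. on an invariant subspace), a bound on all
  eigenvalues is a bound on the quadratic form.
* `rayleigh_le_of_eigen`: the same for operators on plain functions `X → ℝ` with the inner
  product `∑ x, f x * g x`.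
* `rayleigh_le_of_levels`: the "lowest non-vanishing marginal" argument: if a family of
  homogeneous marginal maps `m i`, graded by a level `lev i`, separates the points of `U`, and
  the quadratic form of `T` at a marginal whose lower levels vanish is bounded by `c`, then the
  quadratic form of `T` on `U` is bounded by `c`.
* `rayleigh_le_of_levels'`: the same with `T` a plain function and `U` a predicate.
-/

set_option autoImplicit false

namespace Crest.Agent.Helper97.Shuffle

open Finset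

section InnerProduct

variable {E : Type*} [NormedAddCommGroup E] [InnerProductSpace ℝ E] [FiniteDimensional ℝ E]

/-- If every eigenvalue of a symmetric operator on a finite-dimensional real inner product space
is `≤ c`, then its quadratic form is `≤ c * ‖u‖²`. -/
theorem inner_le_of_eigen (T : E →ₗ[ℝ] E) (hT : T.IsSymmetric) (c : ℝ)
    (heig : ∀ v : E, v ≠ 0 → ∀ lam : ℝ, T v = lam • v → lam ≤ c) (u : E) :
    inner ℝ (T u) u ≤ c * inner ℝ u u := by
  classical
  have hn : Module.finrank ℝ E = Module.finrank ℝ E := rfl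
  have hb : ∀ i, T (hT.eigenvectorBasis hn i) =
      (hT.eigenvalues hn i : ℝ) • hT.eigenvectorBasis hn i :=
    fun i => hT.apply_eigenvectorBasis hn i
  have hlam : ∀ i, hT.eigenvalues hn i ≤ c := fun i =>
    heig (hT.eigenvectorBasis hn i) ((hT.eigenvectorBasis hn).orthonormal.ne_zero i) _ (hb i)
  have h1 : inner ℝ (T u) u = ∑ i, inner ℝ (T u) (hT.eigenvectorBasis hn i) *
      inner ℝ (hT.eigenvectorBasis hn i) u :=
    ((hT.eigenvectorBasis hn).sum_inner_mul_inner (T u) u).symm
  have h2 : inner ℝ u u = ∑ i, inner ℝ u (hT.eigenvectorBasis hn i) *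
      inner ℝ (hT.eigenvectorBasis hn i) u :=
    ((hT.eigenvectorBasis hn).sum_inner_mul_inner u u).symm
  rw [h1, h2, Finset.mul_sum]
  apply Finset.sum_le_sum
  intro i _
  have h3 : inner ℝ (T u) (hT.eigenvectorBasis hn i) =
      hT.eigenvalues hn i * inner ℝ u (hT.eigenvectorBasis hn i) := by
    rw [hT u (hT.eigenvectorBasis hn i), hb i, inner_smul_right]
  rw [h3, real_inner_comm u (hT.eigenvectorBasis hn i)]
  nlinarith [mul_self_nonneg (inner ℝ (hT.eigenvectorBasis hn i) u), hlam i]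

/-- The eigenvalue criterion on an invariant subspace `U` on which the operator is symmetric. -/
theorem inner_le_of_eigen_submodule (T : E →ₗ[ℝ] E) (U : Submodule ℝ E) (c : ℝ)
    (hinv : ∀ u ∈ U, T u ∈ U)
    (hsymm : ∀ f ∈ U, ∀ g ∈ U, inner ℝ (T f) g = inner ℝ f (T g))
    (heig : ∀ v ∈ U, v ≠ 0 → ∀ lam : ℝ, T v = lam • v → lam ≤ c) :
    ∀ u ∈ U, inner ℝ (T u) u ≤ c * inner ℝ u u := by
  intro u hu
  have hTr : (T.restrict hinv).IsSymmetric := by
    intro x y
    exact hsymm x x.2 y y.2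
  have key := inner_le_of_eigen (T.restrict hinv) hTr c (by
    intro v hv lam h
    refine heig v v.2 (fun h0 => hv (Subtype.ext h0)) lam ?_
    have := congrArg Subtype.val h
    simpa using this) ⟨u, hu⟩
  exact key

end InnerProduct

section Functions

variable {X : Type*} [Fintype X]

/-- The inner product of `EuclideanSpace ℝ X` in terms of plain functions. -/
theorem inner_toLp_eq_sum (f g : X → ℝ) :
    inner ℝ (WithLp.toLp 2 f : EuclideanSpace ℝ X) (WithLp.toLp 2 g) = ∑ x, f x * g x := by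
  rw [EuclideanSpace.inner_toLp_toLp]
  simp only [dotProduct, star_trivial]
  exact Finset.sum_congr rfl (fun x _ => mul_comm _ _)

/-- **Eigenvalue criterion, function form.**  `T` a linear operator on functions `X → ℝ`, `U` a
`T`-invariant subspace on which `T` is symmetric for `∑ x, f x * g x`.  If every eigenvalue of
`T` on `U` is `≤ c`, then `∑ x, T u x * u x ≤ c * ∑ x, u x ^ 2` on `U`. -/
theorem rayleigh_le_of_eigen (T : (X → ℝ) →ₗ[ℝ] (X → ℝ)) (U : Submodule ℝ (X → ℝ)) (c : ℝ)
    (hinv : ∀ u ∈ U, T u ∈ U)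
    (hsymm : ∀ f ∈ U, ∀ g ∈ U, ∑ x, T f x * g x = ∑ x, f x * T g x)
    (heig : ∀ v ∈ U, v ≠ 0 → ∀ lam : ℝ, T v = lam • v → lam ≤ c) :
    ∀ u ∈ U, ∑ x, T u x * u x ≤ c * ∑ x, (u x) ^ 2 := by
  classical
  let e : (X → ℝ) ≃ₗ[ℝ] EuclideanSpace ℝ X := (WithLp.linearEquiv 2 ℝ (X → ℝ)).symm
  have he : ∀ f g : X → ℝ, inner ℝ (e f) (e g) = ∑ x, f x * g x := fun f g =>
    inner_toLp_eq_sum f g
  let T' : EuclideanSpace ℝ X →ₗ[ℝ] EuclideanSpace ℝ X :=
    e.toLinearMap ∘ₗ T ∘ₗ e.symm.toLinearMap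
  have hT' : ∀ f : X → ℝ, T' (e f) = e (T f) := by
    intro f
    simp [T']
  let U' : Submodule ℝ (EuclideanSpace ℝ X) := U.map e.toLinearMap
  have hU' : ∀ w : EuclideanSpace ℝ X, w ∈ U' → ∃ f ∈ U, e f = w := by
    intro w hw
    exact hw
  have key := inner_le_of_eigen_submodule T' U' c
    (by
      intro w hw
      obtain ⟨f, hf, rfl⟩ := hU' w hw
      rw [hT']
      exact ⟨T f, hinv f hf, rfl⟩)
    (by
      intro w hw w2 hw2
      obtain ⟨f, hf, rfl⟩ := hU' w hw
      obtain ⟨g, hg, rfl⟩ := hU' w2 hw2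
      rw [hT', hT', he, he]
      exact hsymm f hf g hg)
    (by
      intro w hw hw0 lam h
      obtain ⟨f, hf, rfl⟩ := hU' w hw
      refine heig f hf ?_ lam ?_
      · rintro rfl
        exact hw0 (map_zero e)
      · rw [hT', ← map_smul] at h
        exact e.injective h)
  intro u hu
  have h := key (e u) ⟨u, hu, rfl⟩
  rw [hT', he, he] at h
  refine le_trans h (le_of_eq ?_)
  congr 1
  exact Finset.sum_congr rfl (fun x _ => (sq (u x)).symm)

/-- **Lowest non-vanishing marginal.**  `T` a linear operator on functions `X → ℝ`, `U` a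
`T`-invariant subspace on which `T` is symmetric.  Let `m i : (X → ℝ) → (J i → ℝ)` be a family of
homogeneous maps ("marginals") with levels `lev i : ℕ` such that every nonzero `v ∈ U` has a
nonzero marginal.  Suppose that whenever `v ∈ U` has all marginals of level `< lev i` equal to
zero and `m i v ≠ 0`, then `∑ j, m i (T v) j * m i v j ≤ c * ∑ j, m i v j ^ 2`.  Then
`∑ x, T u x * u x ≤ c * ∑ x, u x ^ 2` on `U`. -/
theorem rayleigh_le_of_levels (T : (X → ℝ) →ₗ[ℝ] (X → ℝ)) (U : Submodule ℝ (X → ℝ)) (c : ℝ)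
    (hinv : ∀ u ∈ U, T u ∈ U)
    (hsymm : ∀ f ∈ U, ∀ g ∈ U, ∑ x, T f x * g x = ∑ x, f x * T g x)
    {I : Type*} (lev : I → ℕ) {J : I → Type*} [∀ i, Fintype (J i)]
    (m : ∀ i, (X → ℝ) → J i → ℝ)
    (hm : ∀ i (a : ℝ) (v : X → ℝ), m i (a • v) = a • m i v)
    (hsep : ∀ v ∈ U, v ≠ 0 → ∃ i, m i v ≠ 0)
    (hquad : ∀ v ∈ U, ∀ i, (∀ i', lev i' < lev i → m i' v = 0) → m i v ≠ 0 →
      ∑ j, m i (T v) j * m i v j ≤ c * ∑ j, (m i v j) ^ 2) :
    ∀ u ∈ U, ∑ x, T u x * u x ≤ c * ∑ x, (u x) ^ 2 := by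
  classical
  apply rayleigh_le_of_eigen T U c hinv hsymm
  intro v hv hv0 lam hlam
  -- the least level carrying a nonzero marginal
  have hex : ∃ n : ℕ, ∃ i, lev i = n ∧ m i v ≠ 0 := by
    obtain ⟨i, hi⟩ := hsep v hv hv0
    exact ⟨lev i, i, rfl, hi⟩
  obtain ⟨i, hi, hmi⟩ := Nat.find_spec hex
  have hlow : ∀ i', lev i' < lev i → m i' v = 0 := by
    intro i' hlt
    by_contra hne
    exact Nat.find_min hex (hi ▸ hlt) ⟨i', rfl, hne⟩
  have hq := hquad v hv i hlow hmi
  rw [hlam, hm] at hq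
  have hpos : 0 < ∑ j, (m i v j) ^ 2 := by
    have hne : ∃ j, m i v j ≠ 0 := by
      by_contra hcon
      push Not at hcon
      exact hmi (funext hcon)
    obtain ⟨j, hj⟩ := hne
    have h1 : (m i v j) ^ 2 ≤ ∑ j, (m i v j) ^ 2 :=
      Finset.single_le_sum (f := fun j => (m i v j) ^ 2) (fun j _ => sq_nonneg _)
        (Finset.mem_univ j)
    have h2 : 0 < (m i v j) ^ 2 := by positivity
    linarith
  have hq' : lam * ∑ j, (m i v j) ^ 2 ≤ c * ∑ j, (m i v j) ^ 2 := by
    refine le_trans (le_of_eq ?_) hq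
    rw [Finset.mul_sum]
    apply Finset.sum_congr rfl
    intro j _
    simp only [Pi.smul_apply, smul_eq_mul]
    ring
  exact le_of_mul_le_mul_right hq' hpos

/-- `rayleigh_le_of_levels` for a plain additive and homogeneous map `T` and a class `P` of
functions closed under addition and scalar multiplication. -/
theorem rayleigh_le_of_levels' (T : (X → ℝ) → (X → ℝ)) (P : (X → ℝ) → Prop) (c : ℝ)
    (hTadd : ∀ f g, T (f + g) = T f + T g) (hTsmul : ∀ (a : ℝ) f, T (a • f) = a • T f)
    (hP0 : P 0) (hPadd : ∀ f g, P f → P g → P (f + g)) (hPsmul : ∀ (a : ℝ) f, P f → P (a • f))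
    (hinv : ∀ u, P u → P (T u))
    (hsymm : ∀ f, P f → ∀ g, P g → ∑ x, T f x * g x = ∑ x, f x * T g x)
    {I : Type*} (lev : I → ℕ) {J : I → Type*} [∀ i, Fintype (J i)]
    (m : ∀ i, (X → ℝ) → J i → ℝ)
    (hm : ∀ i (a : ℝ) (v : X → ℝ), m i (a • v) = a • m i v)
    (hsep : ∀ v, P v → v ≠ 0 → ∃ i, m i v ≠ 0)
    (hquad : ∀ v, P v → ∀ i, (∀ i', lev i' < lev i → m i' v = 0) → m i v ≠ 0 →
      ∑ j, m i (T v) j * m i v j ≤ c * ∑ j, (m i v j) ^ 2) :
    ∀ u, P u → ∑ x, T u x * u x ≤ c * ∑ x, (u x) ^ 2 := by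
  let TL : (X → ℝ) →ₗ[ℝ] (X → ℝ) :=
    { toFun := T
      map_add' := hTadd
      map_smul' := fun a f => by simpa using hTsmul a f }
  let U : Submodule ℝ (X → ℝ) :=
    { carrier := {f | P f}
      add_mem' := fun {f g} hf hg => hPadd f g hf hg
      zero_mem' := hP0
      smul_mem' := fun a f hf => hPsmul a f hf }
  exact rayleigh_le_of_levels TL U c (fun u hu => hinv u hu) (fun f hf g hg => hsymm f hf g hg)
    lev m hm (fun v hv hv0 => hsep v hv hv0) (fun v hv i hlow hmi => hquad v hv i hlow hmi)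

end Functions

end Crest.Agent.Helper97.Shuffle
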