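import Crest.Agent.Helper13.Shuffle.GapStep
import Crest.Agent.Helper82.Shuffle.SymDefs
import Crest.Agent.Helper97.Shuffle.Rayleigh

/-!
# S0222 pre-build (GAP), helper97: Lemma A from the symbol identity and Lemma B

`lemmaA_of : L0Stmt ι → SymStmt ι → QStmt ι → LemmaAStmt ι` (for nonempty `ι`), in the shapes of
`Crest.Agent.Helper82.Shuffle` (`SymDefs.lean`) and `Crest.Agent.Helper13.Gap` (`GapDefs.lean`).

Proof.  `T = avgB ∘ opE` (`avgB` = average over the permutations of the bottom row) is symmetric on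
the class `ClassP` of bottom-invariant functions with vanishing one-card marginals and preserves
it (symbol identity at level one).  By `rayleigh_le_of_levels'` it suffices to bound the quadratic
form of `T` at the lowest non-vanishing marginal of a function of the class, and there the symbol
identity turns it into the quadratic form of `theta W`, which is bounded by `QStmt`.
-/

set_option autoImplicit false
set_option linter.unusedSectionVars false

namespace Crest.Agent.Helper97.Shuffle

open Finset Crest.Agent.Helper13.Gap Crest.Agent.Helper82.Shuffle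

variable {ι : Type*} [Fintype ι] [DecidableEq ι]

/-- The average over the permutations of the bottom row. -/
noncomputable def avgB (f : Equiv.Perm (ι × Bool) → ℝ) : Equiv.Perm (ι × Bool) → ℝ :=
  opR rhoB (unif (Equiv.Perm ι)) f

theorem avgB_of_botInv {u : Equiv.Perm (ι × Bool) → ℝ} (hu : BotInv u) : avgB u = u :=
  opR_of_inv rhoB (unif (Equiv.Perm ι)) sum_unif u hu

theorem botInv_avgB (f : Equiv.Perm (ι × Bool) → ℝ) : BotInv (avgB f) :=
  fun σ c => opR_unif_inv rhoB f σ c

theorem dot_avgB (f g : Equiv.Perm (ι × Bool) → ℝ) : dot (avgB f) g = dot f (avgB g) :=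
  opR_unif_selfadj rhoB f g

theorem botInv_eTop (W : Finset (ι × Bool)) (y : ι × Bool → ι) : BotInv (eTop W y) := by
  intro σ c
  unfold eTop
  simp [Equiv.Perm.mul_apply]

theorem marg_avgB (f : Equiv.Perm (ι × Bool) → ℝ) (W : Finset (ι × Bool)) (y : ι × Bool → ι) :
    marg (avgB f) W y = marg f W y := by
  unfold marg
  rw [dot_avgB, avgB_of_botInv (botInv_eTop W y)]

theorem marg_add (f g : Equiv.Perm (ι × Bool) → ℝ) (W : Finset (ι × Bool)) (y : ι × Bool → ι) :
    marg (f + g) W y = marg f W y + marg g W y := by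
  unfold marg dot
  rw [← Finset.sum_add_distrib]
  exact Finset.sum_congr rfl (fun c _ => by simp [add_mul])

theorem marg_smul (a : ℝ) (f : Equiv.Perm (ι × Bool) → ℝ) (W : Finset (ι × Bool))
    (y : ι × Bool → ι) : marg (a • f) W y = a * marg f W y := by
  unfold marg dot
  rw [Finset.mul_sum]
  exact Finset.sum_congr rfl (fun c _ => by simp [mul_assoc])

theorem marg_zero (W : Finset (ι × Bool)) (y : ι × Bool → ι) :
    marg (0 : Equiv.Perm (ι × Bool) → ℝ) W y = 0 := by
  unfold marg dot
  simp

theorem marg_singleton (u : Equiv.Perm (ι × Bool) → ℝ) (a : ι × Bool) (y : ι × Bool → ι) :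
    marg u {a} y = ∑ c : Equiv.Perm (ι × Bool), (if c (y a, false) = a then u c else 0) := by
  unfold marg dot eTop
  apply Finset.sum_congr rfl
  intro c _
  simp

theorem marg_empty (u : Equiv.Perm (ι × Bool) → ℝ) (y : ι × Bool → ι) :
    marg u ∅ y = ∑ c, u c := by
  unfold marg dot eTop
  simp

theorem eTop_eq_zero_of_not_injOn (W : Finset (ι × Bool)) (y : ι × Bool → ι)
    (hy : ¬ Set.InjOn y (W : Set (ι × Bool))) (c : Equiv.Perm (ι × Bool)) : eTop W y c = 0 := by
  unfold eTop
  rw [if_neg]
  intro hc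
  apply hy
  intro w hw w' hw' hww
  calc w = c (y w, false) := (hc w hw).symm
    _ = c (y w', false) := by rw [hww]
    _ = w' := hc w' hw'

theorem marg_eq_zero_of_not_injOn (v : Equiv.Perm (ι × Bool) → ℝ) (W : Finset (ι × Bool))
    (y : ι × Bool → ι) (hy : ¬ Set.InjOn y (W : Set (ι × Bool))) : marg v W y = 0 := by
  unfold marg dot
  exact Finset.sum_eq_zero (fun c _ => by rw [eTop_eq_zero_of_not_injOn W y hy c, mul_zero])

theorem marg_congr (v : Equiv.Perm (ι × Bool) → ℝ) (W : Finset (ι × Bool))
    (y y' : ι × Bool → ι) (h : ∀ w ∈ W, y w = y' w) : marg v W y = marg v W y' := by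
  have he : eTop W y = eTop W y' := by
    funext c
    unfold eTop
    have hiff : (∀ w ∈ W, c (y w, false) = w) ↔ (∀ w ∈ W, c (y' w, false) = w) := by
      constructor
      · intro hc w hw
        rw [← h w hw]
        exact hc w hw
      · intro hc w hw
        rw [h w hw]
        exact hc w hw
    simp only [hiff]
  unfold marg
  rw [he]

/-! ### The operator `T = avgB ∘ opE` -/

/-- Column-swap average followed by the average over the bottom row. -/
noncomputable def opT (f : Equiv.Perm (ι × Bool) → ℝ) : Equiv.Perm (ι × Bool) → ℝ :=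
  avgB (opE f)

theorem opE_smul (a : ℝ) (f : Equiv.Perm (ι × Bool) → ℝ) : opE (a • f) = a • opE f := by
  funext c
  simp only [opE, Pi.smul_apply, smul_eq_mul]
  rw [← Finset.mul_sum, mul_div_assoc]

theorem avgB_add (f g : Equiv.Perm (ι × Bool) → ℝ) : avgB (f + g) = avgB f + avgB g :=
  opR_add rhoB (unif (Equiv.Perm ι)) f g

theorem avgB_smul (a : ℝ) (f : Equiv.Perm (ι × Bool) → ℝ) : avgB (a • f) = a • avgB f := by
  funext c
  simp only [avgB, opR, Pi.smul_apply, smul_eq_mul]
  rw [Finset.mul_sum]
  exact Finset.sum_congr rfl (fun g _ => by ring)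

theorem opT_add (f g : Equiv.Perm (ι × Bool) → ℝ) : opT (f + g) = opT f + opT g := by
  unfold opT
  rw [opE_add, avgB_add]

theorem opT_smul (a : ℝ) (f : Equiv.Perm (ι × Bool) → ℝ) : opT (a • f) = a • opT f := by
  unfold opT
  rw [opE_smul, avgB_smul]

theorem opT_symm (h0 : L0Stmt ι) {f g : Equiv.Perm (ι × Bool) → ℝ} (hf : BotInv f)
    (hg : BotInv g) : dot (opT f) g = dot f (opT g) := by
  unfold opT
  calc dot (avgB (opE f)) g = dot (opE f) (avgB g) := dot_avgB _ _
    _ = dot (opE f) g := by rw [avgB_of_botInv hg]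
    _ = dot f (opE g) := h0.1 f g
    _ = dot (avgB f) (opE g) := by rw [avgB_of_botInv hf]
    _ = dot f (avgB (opE g)) := dot_avgB _ _

theorem dot_opT_self (h0 : L0Stmt ι) {u : Equiv.Perm (ι × Bool) → ℝ} (hu : BotInv u) :
    dot (opT u) u = ∑ c, (opE u c) ^ 2 := by
  unfold opT
  rw [dot_avgB, avgB_of_botInv hu]
  have h1 : dot (opE u) (opE u) = dot u (opE (opE u)) := h0.1 u (opE u)
  rw [h0.2 u] at h1
  have h2 : dot (opE u) u = dot u (opE u) := by
    unfold dot
    exact Finset.sum_congr rfl (fun c _ => mul_comm _ _)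
  rw [h2, ← h1]
  unfold dot
  exact Finset.sum_congr rfl (fun c _ => (sq _).symm)

/-! ### The class of Lemma A -/

/-- Bottom-invariant functions all of whose one-card marginals vanish. -/
def ClassP (u : Equiv.Perm (ι × Bool) → ℝ) : Prop :=
  BotInv u ∧ ∀ (a : ι × Bool) (y : ι × Bool → ι), marg u {a} y = 0

theorem classP_zero : ClassP (0 : Equiv.Perm (ι × Bool) → ℝ) :=
  ⟨fun _ _ => rfl, fun _ _ => marg_zero _ _⟩

theorem classP_add {f g : Equiv.Perm (ι × Bool) → ℝ} (hf : ClassP f) (hg : ClassP g) :
    ClassP (f + g) := by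
  refine ⟨fun σ c => ?_, fun a y => ?_⟩
  · simp only [Pi.add_apply]
    rw [hf.1 σ c, hg.1 σ c]
  · rw [marg_add, hf.2, hg.2, add_zero]

theorem classP_smul (a : ℝ) {f : Equiv.Perm (ι × Bool) → ℝ} (hf : ClassP f) :
    ClassP (a • f) := by
  refine ⟨fun σ c => ?_, fun b y => ?_⟩
  · simp only [Pi.smul_apply]
    rw [hf.1 σ c]
  · rw [marg_smul, hf.2, mul_zero]

theorem sum_eq_zero_of_classP [Nonempty ι] {u : Equiv.Perm (ι × Bool) → ℝ} (hu : ClassP u) :
    ∑ c, u c = 0 := by
  obtain ⟨y0⟩ := ‹Nonempty ι›
  have h : ∑ a : ι × Bool, marg u {a} (fun _ => y0) = ∑ c, u c := by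
    simp_rw [marg_singleton]
    rw [Finset.sum_comm]
    apply Finset.sum_congr rfl
    intro c _
    simp
  rw [← h]
  exact Finset.sum_eq_zero (fun a _ => hu.2 a _)

theorem classP_opT [Nonempty ι] (hS : SymStmt ι) {u : Equiv.Perm (ι × Bool) → ℝ}
    (hu : ClassP u) : ClassP (opT u) := by
  refine ⟨botInv_avgB _, ?_⟩
  intro a y
  unfold opT
  rw [marg_avgB]
  have hlow : ∀ (W' : Finset (ι × Bool)) (y' : ι × Bool → ι),
      W'.card < ({a} : Finset (ι × Bool)).card → marg u W' y' = 0 := by
    intro W' y' hlt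
    rw [Finset.card_singleton, Nat.lt_one_iff, Finset.card_eq_zero] at hlt
    subst hlt
    rw [marg_empty]
    exact sum_eq_zero_of_classP hu
  rw [hS u hu.1 {a} y hlow (by simp)]
  unfold theta
  simp [hu.2 a]

/-! ### Separation: a nonzero bottom-invariant function has a nonzero marginal -/

theorem exists_rowsE_of_top_eq (c c0 : Equiv.Perm (ι × Bool))
    (h : ∀ y, c (y, false) = c0 (y, false)) : ∃ σ : Equiv.Perm ι, c = c0 * rowsE 1 σ := by
  set k : Equiv.Perm (ι × Bool) := c0⁻¹ * c with hk
  have hk_top : ∀ y, k (y, false) = (y, false) := by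
    intro y
    rw [hk, Equiv.Perm.mul_apply, h y, Equiv.Perm.inv_def, Equiv.symm_apply_apply]
  have hk_bot : ∀ y, (k (y, true)).2 = true := by
    intro y
    by_contra hne
    have hfalse : (k (y, true)).2 = false := by simpa using hne
    have h1 : k (y, true) = k ((k (y, true)).1, false) := by
      rw [hk_top]
      exact Prod.ext rfl hfalse
    have h2 := k.injective h1
    have h3 := congrArg Prod.snd h2
    simp at h3
  have hinj : Function.Injective (fun y : ι => (k (y, true)).1) := by
    intro y y' hyy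
    have h1 : k (y, true) = k (y', true) := Prod.ext hyy (by rw [hk_bot, hk_bot])
    have h2 := k.injective h1
    exact congrArg Prod.fst h2
  let σ : Equiv.Perm ι := Equiv.ofBijective _ (Finite.injective_iff_bijective.mp hinj)
  have hσ : ∀ y, σ y = (k (y, true)).1 := fun y => rfl
  refine ⟨σ, ?_⟩
  apply Equiv.ext
  rintro ⟨y, b⟩
  cases b
  · rw [Equiv.Perm.mul_apply]
    simp [h y]
  · rw [Equiv.Perm.mul_apply]
    have h1 : rowsE 1 σ (y, true) = k (y, true) := by
      apply Prod.ext
      · simp [hσ]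
      · simp [hk_bot]
    rw [h1, hk, Equiv.Perm.mul_apply, Equiv.Perm.inv_def, Equiv.apply_symm_apply]

theorem exists_marg_ne_zero {v : Equiv.Perm (ι × Bool) → ℝ} (hv : BotInv v) (hv0 : v ≠ 0) :
    ∃ W : Finset (ι × Bool), (fun y => marg v W y) ≠ 0 := by
  obtain ⟨c0, hc0⟩ : ∃ c0, v c0 ≠ 0 := by
    by_contra hcon
    push Not at hcon
    exact hv0 (funext hcon)
  let W : Finset (ι × Bool) := univ.image (fun y : ι => c0 (y, false))
  let y0 : ι × Bool → ι := fun w => (c0.symm w).1
  refine ⟨W, fun hzero => ?_⟩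
  have hm : marg v W y0 = 0 := congrFun hzero y0
  have hcond : ∀ c : Equiv.Perm (ι × Bool),
      (∀ w ∈ W, c (y0 w, false) = w) ↔ ∀ y, c (y, false) = c0 (y, false) := by
    intro c
    constructor
    · intro hc y
      have := hc (c0 (y, false)) (Finset.mem_image.mpr ⟨y, Finset.mem_univ y, rfl⟩)
      simpa [y0] using this
    · intro hc w hw
      obtain ⟨y, -, rfl⟩ := Finset.mem_image.mp hw
      simp [y0, hc y]
  have hval : ∀ c, v c * eTop W y0 c = v c0 * eTop W y0 c := by
    intro c
    unfold eTop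
    by_cases hc : ∀ w ∈ W, c (y0 w, false) = w
    · obtain ⟨σ, rfl⟩ := exists_rowsE_of_top_eq c c0 ((hcond c).1 hc)
      rw [hv σ c0]
    · rw [if_neg hc]
      simp
  have hsum : marg v W y0 = v c0 * ∑ c, eTop W y0 c := by
    unfold marg dot
    rw [Finset.mul_sum]
    exact Finset.sum_congr rfl (fun c _ => hval c)
  have hpos : 0 < ∑ c, eTop W y0 c := by
    have h1 : eTop W y0 c0 ≤ ∑ c, eTop W y0 c :=
      Finset.single_le_sum (f := fun c => eTop W y0 c)
        (fun c _ => by unfold eTop; split_ifs <;> norm_num) (Finset.mem_univ c0)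
    have h2 : eTop W y0 c0 = 1 := by
      unfold eTop
      rw [if_pos ((hcond c0).2 (fun y => rfl))]
    linarith
  rw [hsum] at hm
  rcases mul_eq_zero.mp hm with h | h
  · exact hc0 h
  · exact (ne_of_gt hpos) h

/-! ### Lemma A -/

/-- **Lemma A from the symbol identity and Lemma B.** -/
theorem lemmaA_of [Nonempty ι] (h0 : L0Stmt ι) (hS : SymStmt ι) (hQ : QStmt ι) :
    LemmaAStmt ι := by
  intro u hu1 hu2
  have hPu : ClassP u := by
    refine ⟨hu1, ?_⟩
    intro a y
    rw [marg_singleton]
    exact hu2 (y a) a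
  have hquad : ∀ v : Equiv.Perm (ι × Bool) → ℝ, ClassP v → ∀ W : Finset (ι × Bool),
      (∀ W' : Finset (ι × Bool), W'.card < W.card → (fun y => marg v W' y) = 0) →
      (fun y => marg v W y) ≠ 0 →
      ∑ y, marg (opT v) W y * marg v W y ≤ 1 / 4 * ∑ y, (marg v W y) ^ 2 := by
    intro v hv W hlow hne
    have hlow' : ∀ (W' : Finset (ι × Bool)) (y' : ι × Bool → ι),
        W'.card < W.card → marg v W' y' = 0 :=
      fun W' y' hlt => congrFun (hlow W' hlt) y'
    have hcard : 2 ≤ W.card := by
      by_contra hlt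
      apply hne
      funext y
      have hle : W.card ≤ 1 := by omega
      rcases Nat.lt_or_eq_of_le hle with h | h
      · have hW : W = ∅ := Finset.card_eq_zero.mp (by omega)
        subst hW
        rw [marg_empty]
        exact sum_eq_zero_of_classP hv
      · obtain ⟨a, rfl⟩ := Finset.card_eq_one.mp h
        exact hv.2 a y
    have hterm : ∀ y, marg (opT v) W y * marg v W y =
        marg v W y * theta W (fun y' => marg v W y') y := by
      intro y
      by_cases hy : Set.InjOn y (W : Set (ι × Bool))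
      · unfold opT
        rw [marg_avgB, hS v hv.1 W y hlow' hy]
        ring
      · rw [marg_eq_zero_of_not_injOn v W y hy]
        ring
    have hq := hQ W (fun y => marg v W y) hcard
      (fun y hy => marg_eq_zero_of_not_injOn v W y hy) (fun y y' h => marg_congr v W y y' h)
    calc ∑ y, marg (opT v) W y * marg v W y
        = ∑ y, marg v W y * theta W (fun y' => marg v W y') y :=
          Finset.sum_congr rfl (fun y _ => hterm y)
      _ ≤ |∑ y, marg v W y * theta W (fun y' => marg v W y') y| := le_abs_self _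
      _ ≤ 1 / 4 * ∑ y, (marg v W y) ^ 2 := hq
  have key := rayleigh_le_of_levels' (X := Equiv.Perm (ι × Bool)) opT ClassP (1 / 4)
    opT_add opT_smul classP_zero (fun f g hf hg => classP_add hf hg)
    (fun a f hf => classP_smul a hf)
    (fun u hu => classP_opT hS hu)
    (fun f hf g hg => opT_symm h0 hf.1 hg.1)
    (I := Finset (ι × Bool)) (fun W => W.card) (J := fun _ => (ι × Bool → ι))
    (fun W v y => marg v W y)
    (fun W a v => by funext y; simp [marg_smul])
    (fun v hv hv0 => exists_marg_ne_zero hv.1 hv0)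
    hquad u hPu
  have h := dot_opT_self h0 hu1
  unfold dot at h
  rw [← h]
  exact key

end Crest.Agent.Helper97.Shuffle
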